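import Vale.Agent.P186.H95.Main

theorem Vale.Agent.Results.P186.A_full.result :
    ∃ (G : Type) (_ : Group G),
      Vale.Agent.P186.H95.IsWordHyperbolic G ∧ ¬ Group.ResiduallyFinite G :=
  Vale.Agent.P186.H95.main
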